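import Vale.Agent.P144E.Ge5.B

/-!
Polygons are locally half planes, or intersections or unions of two half planes.
-/

namespace Vale.Agent.P144S.L

open Filter Topology Metric Vale.Agent.P144Z Vale.Agent.P144Z.Ge5

/-- The local form of a polygon. -/
def PAAt (D : Set ℂ) (z : ℂ) : Prop := ∃ a b c d : ℝ, a * d - b * c ≠ 0 ∧
  ((∀ᶠ w in 𝓝 z, w ∈ D ↔ 0 < hp a b z w) ∨
    (∀ᶠ w in 𝓝 z, w ∈ D ↔ 0 < hp a b z w ∧ 0 < hp c d z w) ∨
    ∀ᶠ w in 𝓝 z, w ∈ D ↔ 0 < hp a b z w ∨ 0 < hp c d z w)

variable {D : Set ℂ} {z : ℂ}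

theorem pa_aff (a b c d : ℝ) (h : a * d - b * c ≠ 0)
    (hD : (∀ᶠ w in 𝓝 z, w ∈ D ↔ 0 < hp a b z w) ∨
      (∀ᶠ w in 𝓝 z, w ∈ D ↔ 0 < hp a b z w ∧ 0 < hp c d z w) ∨
      ∀ᶠ w in 𝓝 z, w ∈ D ↔ 0 < hp a b z w ∨ 0 < hp c d z w) : PAAt D z := ⟨a, b, c, d, h, hD⟩

theorem rays2 (ho : IsOpen D) (hr : interior (closure D) = D) (hz : z ∈ frontier D) {a b : ℂ}
    (ha : a ≠ 0) (hb : b ≠ 0) (hn : ∀ c > (0 : ℝ), b ≠ c • a)
    (h : ∀ᶠ w in 𝓝 z, w ∈ frontier D ↔
      (∃ t ≥ (0 : ℝ), w = z + t • a) ∨ ∃ t ≥ (0 : ℝ), w = z + t • b) : PAAt D z := by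
  have hc := fun a b r (_ : r > 0) => ((conv_hp a b z).inter (convex_ball z r)).isPreconnected
  have n0 : 0 < a.re ^ 2 + a.im ^ 2 := by
    rw [sq, sq, ← Complex.normSq_apply]
    exact Complex.normSq_pos.2 ha
  by_cases hΔ : a.re * b.im - a.im * b.re = 0
  · obtain ⟨c, rfl⟩ : ∃ c : ℝ, b = c • a :=
      ⟨(a.re * b.re + a.im * b.im) / (a.re ^ 2 + a.im ^ 2), Complex.ext
        (by simp only [Complex.smul_re, smul_eq_mul]; field_simp; linear_combination -a.im * hΔ)
        (by simp only [Complex.smul_im, smul_eq_mul]; field_simp; linear_combination a.re * hΔ)⟩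
    have c0 : c < 0 := lt_of_le_of_ne (not_lt.1 fun e => hn c e rfl) fun e => hb (by simp [e])
    have e := two ho hr hz (hc (-a.im) a.re) (hc a.im (-a.re))
      (h.mono fun w hw => by
        rw [hw, not_iff_comm]
        simp only [Set.mem_ofPred_eq, hp, not_or, not_lt]
        constructor
        · rintro ⟨h1, h2⟩
          obtain ⟨t, rfl⟩ : ∃ t : ℝ, w = z + t • a :=
            ⟨(a.re * (w.re - z.re) + a.im * (w.im - z.im)) / (a.re ^ 2 + a.im ^ 2), Complex.ext
              (by
                simp only [Complex.add_re, Complex.smul_re, smul_eq_mul]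
                field_simp
                linear_combination -a.im * le_antisymm h1 (by linarith))
              (by
                simp only [Complex.add_im, Complex.smul_im, smul_eq_mul]
                field_simp
                linear_combination a.re * le_antisymm h1 (by linarith))⟩
          rcases le_total 0 t with h3 | h3
          · exact Or.inl ⟨t, h3, rfl⟩
          · exact Or.inr ⟨t / c, div_nonneg_of_nonpos h3 c0.le, by
              rw [smul_smul, div_mul_cancel₀ _ c0.ne]⟩
        · rintro (⟨t, -, rfl⟩ | ⟨t, -, rfl⟩) <;>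
            simp only [Complex.add_re, Complex.add_im, Complex.smul_re, Complex.smul_im,
              smul_eq_mul] <;> constructor <;> linarith)
    exact e.elim (fun e => pa_aff _ _ a.re a.im (by linarith) (Or.inl e))
      fun e => pa_aff _ _ a.re a.im (by linarith) (Or.inl e)
  · obtain ⟨Δ, hd⟩ : ∃ Δ, Δ = a.re * b.im - a.im * b.re := ⟨_, rfl⟩
    rw [← hd] at hΔ
    have k : ∀ x y : ℝ, hp (b.im / Δ) (-b.re / Δ) z (z + x • a + y • b) = x ∧
        hp (-a.im / Δ) (a.re / Δ) z (z + x • a + y • b) = y := fun x y => by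
      simp only [hp, Complex.add_re, Complex.add_im, Complex.smul_re, Complex.smul_im, smul_eq_mul]
      constructor <;> field_simp <;> rw [hd] <;> ring
    have k' : ∀ a b w, hp (-a) (-b) z w = -hp a b z w := fun a b w => by
      simp only [hp]
      ring
    have e := two ho hr hz
      (U := {w | 0 < hp (b.im / Δ) (-b.re / Δ) z w} ∩ {w | 0 < hp (-a.im / Δ) (a.re / Δ) z w})
      (V := {w | 0 < hp (-(b.im / Δ)) (-(-b.re / Δ)) z w} ∪
        {w | 0 < hp (-(-a.im / Δ)) (-(a.re / Δ)) z w})
      (fun r _ => (((conv_hp _ _ z).inter (conv_hp _ _ z)).inter (convex_ball z r)).isPreconnected)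
      (fun r r0 => by
        have c1 : ContinuousAt (fun t : ℝ => z + t • a + t • b) 0 := by fun_prop
        obtain ⟨t, t1, t2⟩ := ((eventually_nhdsWithin_of_eventually_nhds (s := Set.Iio 0)
          (c1.eventually_mem (s := ball z r) (by simpa using ball_mem_nhds z r0))).and
            self_mem_nhdsWithin).exists
        rw [Set.union_inter_distrib_right]
        exact IsPreconnected.union (z + t • a + t • b)
          ⟨by rw [Set.mem_ofPred_eq, k', (k t t).1]; exact neg_pos.2 t2, t1⟩
          ⟨by rw [Set.mem_ofPred_eq, k', (k t t).2]; exact neg_pos.2 t2, t1⟩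
          (hc _ _ r r0) (hc _ _ r r0))
      (h.mono fun w hw => by
        rw [hw, not_iff_comm]
        obtain ⟨x, y, rfl⟩ : ∃ x y : ℝ, w = z + x • a + y • b :=
          ⟨hp (b.im / Δ) (-b.re / Δ) z w, hp (-a.im / Δ) (a.re / Δ) z w, Complex.ext
            (by
              simp only [hp, Complex.add_re, Complex.smul_re, smul_eq_mul]
              field_simp
              rw [hd]
              ring)
            (by
              simp only [hp, Complex.add_im, Complex.smul_im, smul_eq_mul]
              field_simp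
              rw [hd]
              ring)⟩
        simp only [Set.mem_inter_iff, Set.mem_union, Set.mem_ofPred_eq, k', (k x y).1, (k x y).2,
          not_or, not_lt, not_and_or]
        constructor
        · rintro ⟨h1 | h1, h2, h3⟩
          · exact Or.inr ⟨y, by linarith, by simp [le_antisymm h1 (by linarith)]⟩
          · exact Or.inl ⟨x, by linarith, by simp [le_antisymm h1 (by linarith)]⟩
        · rintro (⟨t, t0, e⟩ | ⟨t, t0, e⟩)
          · have e1 := k t 0
            rw [zero_smul, add_zero, ← e, (k x y).1, (k x y).2] at e1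
            exact ⟨Or.inr e1.2.le, by linarith [e1.1], by linarith [e1.2]⟩
          · have e1 := k 0 t
            rw [zero_smul, add_zero, ← e, (k x y).1, (k x y).2] at e1
            exact ⟨Or.inl e1.1.le, by linarith [e1.1], by linarith [e1.2]⟩)
    have d0 : b.im / Δ * (a.re / Δ) - -b.re / Δ * (-a.im / Δ) ≠ 0 := by
      rw [show b.im / Δ * (a.re / Δ) - -b.re / Δ * (-a.im / Δ) = Δ⁻¹ by
        field_simp
        rw [hd]
        ring]
      exact inv_ne_zero hΔ
    exact e.elim (fun e => pa_aff _ _ _ _ d0 (Or.inr (Or.inl e)))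
      fun e => pa_aff _ _ _ _ (by rwa [neg_mul_neg, neg_mul_neg]) (Or.inr (Or.inr e))
theorem segs2 (ho : IsOpen D) (hr : interior (closure D) = D) (hz : z ∈ frontier D) {p q : ℂ}
    (hp : p ≠ z) (hq : q ≠ z)
    (hn : ∃ y, ∀ w ∈ segment ℝ z p, w ∈ segment ℝ z q → w = z ∨ w = y)
    (h : ∀ᶠ w in 𝓝 z, w ∈ frontier D ↔ w ∈ segment ℝ z p ∨ w ∈ segment ℝ z q) : PAAt D z := by
  refine rays2 ho hr hz (sub_ne_zero.2 hp) (sub_ne_zero.2 hq) (fun c c0 e => ?_)
    ((h.and ((seg_ray hp).and (seg_ray hq))).mono fun w hw => hw.1.trans (or_congr hw.2.1 hw.2.2))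
  obtain ⟨y, hy⟩ := hn
  have k : ∀ t > (0 : ℝ), t ≤ min c 1 → z + t • (p - z) = y := fun t t0 t1 => by
    refine (hy _ ?_ ?_).resolve_left fun e1 => ?_
    · rw [segment_eq_image']
      exact ⟨t, ⟨t0.le, t1.trans (min_le_right _ _)⟩, rfl⟩
    · rw [segment_eq_image']
      refine ⟨t / c, ⟨by positivity, (div_le_one c0).2 (t1.trans (min_le_left _ _))⟩, ?_⟩
      simp only [e, smul_smul, div_mul_cancel₀ _ c0.ne']
    · exact smul_ne_zero t0.ne' (sub_ne_zero.2 hp) (add_eq_left.1 e1)
  have m0 : 0 < min c 1 := lt_min c0 one_pos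
  have e1 := (k _ m0 le_rfl).trans (k _ (half_pos m0) (half_le_self m0.le)).symm
  exact (half_lt_self m0).ne' (smul_left_injective ℝ (sub_ne_zero.2 hp) (add_left_cancel e1))
theorem polygon_aff (h : IsPolygon D) : ∀ z ∈ frontier D, PAAt D z := by
  obtain ⟨ho, hb, hr, ι, _, s, v, e, hv, hs⟩ := h
  intro z hz
  have k : ∀ᶠ w in 𝓝 z, ∀ i, w ∈ segment ℝ (v i) (v (s i)) → z ∈ segment ℝ (v i) (v (s i)) :=
    eventually_all.2 fun i => by
      by_cases h : z ∈ segment ℝ (v i) (v (s i))
      · exact Eventually.of_forall fun _ _ => h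
      · have c : IsClosed (segment ℝ (v i) (v (s i))) := by
          rw [segment_eq_image']
          exact (isCompact_Icc.image (by fun_prop)).isClosed
        exact mem_of_superset (c.isOpen_compl.mem_nhds h) fun w hw h1 => (hw h1).elim
  by_cases h : ∃ j, z = v j
  · obtain ⟨j, rfl⟩ := h
    obtain ⟨i, rfl⟩ := s.surjective j
    have ne : s i ≠ i := fun e => hv i (by rw [e])
    refine segs2 ho hr hz (hv (s i)).symm (hv i) ⟨v i, fun w h1 h2 => ?_⟩ (k.mono fun w hw => ?_)
    · rw [segment_symm] at h2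
      exact (hs _ _ ne w h1 h2).symm.imp And.right And.right
    · rw [e, Set.mem_iUnion, segment_symm ℝ _ (v i)]
      refine ⟨fun ⟨l, hl⟩ => ?_, fun h => h.elim (fun h => ⟨_, h⟩) fun h => ⟨_, h⟩⟩
      by_cases h1 : s i = l
      · exact Or.inl (h1 ▸ hl)
      rcases hs _ _ h1 _ (left_mem_segment ℝ _ _) (hw l hl) with h2 | h2
      · exact (hv (s i) (h2.2.trans (by rw [h2.1]))).elim
      · exact Or.inr (s.injective h2.1 ▸ hl)
  · have h1 := hz
    rw [e, Set.mem_iUnion] at h1
    obtain ⟨i, hi⟩ := h1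
    have hi' := hi
    rw [segment_eq_image'] at hi'
    obtain ⟨t, ⟨t0, t1⟩, ht⟩ := hi'
    simp only at ht
    have d0 := sub_ne_zero.2 (hv i).symm
    refine segs2 ho hr hz (p := v i) (q := v (s i)) (fun e => h ⟨_, e.symm⟩)
      (fun e => h ⟨_, e.symm⟩) ⟨z, fun w h1 h2 => Or.inl ?_⟩ (k.mono fun w hw => ?_)
    · rw [segment_eq_image'] at h1 h2
      obtain ⟨a, ⟨a0, -⟩, rfl⟩ := h1
      obtain ⟨b, ⟨b0, -⟩, h2⟩ := h2
      have h3 : (b * (1 - t) + a * t) • (v (s i) - v i) = 0 := by
        simp only [← ht, Complex.real_smul] at h2 ⊢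
        push_cast
        linear_combination h2
      have h4 : a * t = 0 := by
        have := (smul_eq_zero.1 h3).resolve_right d0
        nlinarith [mul_nonneg b0 (sub_nonneg.2 t1), mul_nonneg a0 t0]
      have h5 := congrArg Complex.ofReal h4
      simp only [← ht, Complex.real_smul]
      push_cast at h5
      linear_combination (v i - v (s i)) * h5
    · rw [e, Set.mem_iUnion]
      have c := convex_segment (𝕜 := ℝ) (v i) (v (s i))
      refine ⟨fun ⟨l, hl⟩ => ?_, fun h => ⟨i, h.elim
        (fun h => c.segment_subset hi (left_mem_segment ℝ _ _) h)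
        fun h => c.segment_subset hi (right_mem_segment ℝ _ _) h⟩⟩
      obtain rfl : i = l := by
        by_contra h1
        exact (hs _ _ h1 _ hi (hw l hl)).elim (fun h2 => h ⟨_, h2.2⟩) fun h2 => h ⟨_, h2.2⟩
      rw [← insert_endpoints_openSegment] at hl
      rcases hl with rfl | rfl | hl
      · exact Or.inl (right_mem_segment ℝ _ _)
      · exact Or.inr (right_mem_segment ℝ _ _)
      rcases openSegment_subset_union (v i) (v (s i)) (z := z)
        ⟨t, by rw [AffineMap.lineMap_apply_module', add_comm]; exact ht⟩ hl with rfl | hl | hl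
      · exact Or.inl (left_mem_segment ℝ _ _)
      · exact Or.inl (segment_symm ℝ (v i) z ▸ openSegment_subset_segment ℝ _ _ hl)
      · exact Or.inr (openSegment_subset_segment ℝ _ _ hl)

end Vale.Agent.P144S.L
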