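import Vale.Agent.P144S.L.Lat
import Vale.Agent.P144S.L.Poly
import Vale.Agent.P144Q.U.Lip3

/-!
Domains of the class `Lip4`: invariance and examples.
-/

namespace Vale.Agent.P144S.L

open Filter Topology Metric Set Vale.Agent.P144 Vale.Agent.P144Q Vale.Agent.P144Q.U
open Vale.Agent.P144Z (Cone Tame IsC1 IsLip IsPC1 IsPolygon)
open Vale.Agent.P144Z.Ge5 (gr nu norm_nu eg hp)
open Vale.Agent.P144Q.L (ip ip_le ip_self ip_add ip_sub ip_smul)

variable {D : Set ℂ}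

/-- At each boundary point the complement of `D` contains a small closed circular sector whose
opening is larger than a right angle. -/
def Obtuse (D : Set ℂ) : Prop :=
  ∀ z ∈ frontier D, ∃ c < √2 / 2, ∃ r > (0 : ℝ), ∃ ν : ℂ, ‖ν‖ = 1 ∧
    ∀ v : ℂ, ‖v‖ < r → c * ‖v‖ ≤ v.re * ν.re + v.im * ν.im → z + v ∉ D

/-- At each boundary point the complement of `D` contains a small closed circular sector whose
opening is a right angle. -/
def Right (D : Set ℂ) : Prop :=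
  ∀ z ∈ frontier D, ∃ r > (0 : ℝ), ∃ ν : ℂ, ‖ν‖ = 1 ∧
    ∀ v : ℂ, ‖v‖ < r → √2 / 2 * ‖v‖ ≤ v.re * ν.re + v.im * ν.im → z + v ∉ D

theorem k_sq : 2 * (√2 / 2) ^ 2 = 1 := by
  rw [div_pow, Real.sq_sqrt (by norm_num)]; norm_num

theorem k_pos : 0 < √2 / 2 := by positivity

theorem lip4_sim {g o : ℂ → ℂ} {t : ℝ} (ht : 0 < t) (hc : Continuous g)
    (ha : ∀ x y, g (x + y) = g x + g y) (hn : ∀ v, ‖g v‖ = t * ‖v‖) (ho : ∀ v, ‖o v‖ = ‖v‖)
    (hi : ∀ v ν, (g v).re * ν.re + (g v).im * ν.im = t * (v.re * (o ν).re + v.im * (o ν).im))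
    (hj : ∀ μ ν, ip (o μ) (o ν) = ip μ ν) (h : Lip4 D) : Lip4 (g ⁻¹' D) := by
  obtain ⟨h1, h2, γ, r, g0, r0, h⟩ := h
  have cone : ∀ S ν κ, Cone S ν κ → Cone (g ⁻¹' S) (o ν) κ := by
    intro S ν κ hS z hz v hv
    show g (z + v) ∈ S
    rw [ha]
    refine hS _ hz _ ?_
    rw [hi, hn]
    nlinarith
  refine ⟨h1.preimage hc, ?_, γ, r / t, g0, div_pos r0 ht, fun z => ?_⟩
  · obtain ⟨T, hT⟩ := h2.exists_norm_le
    refine isBounded_iff_forall_norm_le.2 ⟨T / t, fun w hw => ?_⟩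
    have := hT _ hw
    rw [hn] at this
    rw [le_div_iff₀ ht]
    linarith
  · obtain ⟨κ, S₁, S₂, ν₁, ν₂, μ, k0, k1, a1, a2, a3, a4, a5, a6, a7, a8⟩ := h (g z)
    refine ⟨κ, g ⁻¹' S₁, g ⁻¹' S₂, o ν₁, o ν₂, o μ, k0, k1, by rw [ho, a1], by rw [ho, a2],
      by rw [ho, a3], by rwa [hj], by rwa [hj], cone _ _ _ a6, cone _ _ _ a7, ?_⟩
    have e : ball z (r / t) = g ⁻¹' ball (g z) r := by
      ext w
      have e1 : g w - g z = g (w - z) := by
        have := ha (w - z) z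
        rw [sub_add_cancel] at this
        rw [this]; ring
      rw [mem_preimage, mem_ball, mem_ball, dist_eq_norm, dist_eq_norm, e1, hn, lt_div_iff₀ ht,
        mul_comm]
    rw [e, ← preimage_inter, a8, preimage_inter, preimage_inter]

theorem lip4_mul {R : ℝ} (hR : 0 < R) (h : Lip4 D) : Lip4 ((fun z => (R : ℂ) * z) ⁻¹' D) := by
  refine lip4_sim (o := fun z => z) hR (by fun_prop) (fun x y => mul_add _ x y) (fun v => ?_)
    (fun _ => rfl) (fun v ν => ?_) (fun _ _ => rfl) h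
  · rw [norm_mul, Complex.norm_real, Real.norm_of_nonneg hR.le]
  · rw [Complex.re_ofReal_mul, Complex.im_ofReal_mul]; ring

theorem lip4_div {R : ℝ} (hR : 0 < R) (h : Lip4 D) : Lip4 ((fun z => z / (R : ℂ)) '' D) := by
  rw [div_image hR]
  exact lip4_mul hR h

theorem lip4_rc (h : Lip4 D) : Lip4 (H436.rc '' D) := by
  rw [rc_image]
  refine lip4_sim (o := H436.rc) one_pos rc_cont (fun x y => ?_)
    (fun v => by rw [rc_norm, one_mul]) rc_norm (fun v ν => ?_) (fun μ ν => ?_) h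
  · apply Complex.ext <;> simp [H436.rc, add_comm]
  · simp [H436.rc]
  · simp [H436.rc, ip]

theorem chart4_mono {γ γ' r r' : ℝ} {z z' : ℂ} (h : Chart4 D γ r z) (hγ : γ' ≤ γ)
    (hb : ball z' r' ⊆ ball z r) : Chart4 D γ' r' z' := by
  obtain ⟨κ, S₁, S₂, ν₁, ν₂, μ, k0, k1, a1, a2, a3, a4, a5, a6, a7, a8⟩ := h
  refine ⟨κ, S₁, S₂, ν₁, ν₂, μ, k0, k1, a1, a2, a3, by linarith, by linarith, a6, a7, ?_⟩
  rw [← inter_eq_self_of_subset_right hb, ← inter_assoc, a8, inter_assoc]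

theorem chart4_one {S : Set ℂ} {ν z : ℂ} {κ : ℝ} (k0 : 0 ≤ κ) (k1 : 2 * κ ^ 2 ≤ 1) (hν : ‖ν‖ = 1)
    (hS : Cone S ν κ) (h : ∀ᶠ w in 𝓝 z, w ∈ D ↔ w ∈ S) :
    ∃ γ > (0 : ℝ), ∃ r > (0 : ℝ), Chart4 D γ r z := by
  obtain ⟨r, hr, e⟩ := P144Z.Ge5.ball_of_ev h
  have e1 := ip_self hν
  have k2 : κ ≤ 9 / 10 := by nlinarith
  exact ⟨1 / 10, by norm_num, r, hr, κ, S, S, ν, ν, ν, k0, k1, hν, hν, hν, by linarith,
    by linarith, hS, hS, by rw [inter_self, e]⟩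

theorem chart4_two {S₁ S₂ : Set ℂ} {ν₁ ν₂ z : ℂ} {κ : ℝ} (k0 : 0 ≤ κ) (k1 : κ ≤ 1 / 2)
    (n1 : ‖ν₁‖ = 1) (n2 : ‖ν₂‖ = 1) (k2 : κ ≤ ‖ν₁ + ν₂‖ / 4) (hn : ν₁ + ν₂ ≠ 0)
    (c1 : Cone S₁ ν₁ κ) (c2 : Cone S₂ ν₂ κ) (h : ∀ᶠ w in 𝓝 z, w ∈ D ↔ w ∈ S₁ ∩ S₂) :
    ∃ γ > (0 : ℝ), ∃ r > (0 : ℝ), Chart4 D γ r z := by
  obtain ⟨r, hr, e⟩ := P144Z.Ge5.ball_of_ev h
  obtain ⟨μ, m1, m2, m3⟩ := bisect n1 n2 hn
  have s0 := norm_pos_iff.2 hn
  exact ⟨‖ν₁ + ν₂‖ / 4, by positivity, r, hr, κ, S₁, S₂, _, _, μ, k0, by nlinarith, n1, n2, m1,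
    by linarith, by linarith, c1, c2, e⟩

/-- Charts at the boundary points suffice. -/
theorem lip4_of_loc (ho : IsOpen D) (hb : Bornology.IsBounded D)
    (h : ∀ z ∈ frontier D, ∃ γ > (0 : ℝ), ∃ r > (0 : ℝ), Chart4 D γ r z) : Lip4 D := by
  have all : ∀ z : ℂ, ∃ γ > (0 : ℝ), ∃ r > (0 : ℝ), Chart4 D γ r z := by
    intro z
    by_cases hz : z ∈ frontier D
    · exact h z hz
    by_cases h1 : z ∈ D
    · exact chart4_one (S := univ) le_rfl (by norm_num) norm_one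
        (fun _ _ _ _ => trivial) (mem_of_superset (ho.mem_nhds h1) fun w hw =>
          ⟨fun _ => trivial, fun _ => hw⟩)
    · exact chart4_one (S := ∅) le_rfl (by norm_num) norm_one
        (fun _ h => h.elim) (mem_of_superset (isClosed_closure.isOpen_compl.mem_nhds
          fun h3 => hz ⟨h3, fun h4 => h1 (interior_subset h4)⟩) fun w hw =>
            ⟨fun o => hw (subset_closure o), fun o => o.elim⟩)
  obtain ⟨T, hT⟩ := hb.exists_norm_le
  obtain ⟨γ, g0, r, r0, hK⟩ := (isCompact_closedBall (0 : ℂ) (T + 1)).induction_on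
    (p := fun K => ∃ γ > (0 : ℝ), ∃ r > (0 : ℝ), ∀ z ∈ K, Chart4 D γ r z)
    ⟨1, one_pos, 1, one_pos, fun _ h => h.elim⟩
    (fun _ _ hs ⟨γ, g0, r, r0, ha⟩ => ⟨γ, g0, r, r0, fun z hz => ha z (hs hz)⟩)
    (fun _ _ ⟨γ, g0, r, r0, ha⟩ ⟨γ', g0', r', r0', ha'⟩ =>
      ⟨min γ γ', lt_min g0 g0', min r r', lt_min r0 r0', fun z hz => hz.elim
        (fun hz => chart4_mono (ha z hz) (min_le_left _ _) (ball_subset_ball (min_le_left _ _)))
        fun hz => chart4_mono (ha' z hz) (min_le_right _ _) (ball_subset_ball (min_le_right _ _))⟩)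
    fun p _ => by
      obtain ⟨γ, g0, r, r0, ha⟩ := all p
      exact ⟨_, mem_nhdsWithin_of_mem_nhds (ball_mem_nhds p (half_pos r0)), γ, g0, r / 2,
        half_pos r0, fun z hz => chart4_mono ha le_rfl
          (ball_subset_ball' (by linarith [mem_ball.1 hz]))⟩
  refine ⟨ho, hb, min γ 1, min r 1, lt_min g0 one_pos, lt_min r0 one_pos, fun z => ?_⟩
  by_cases hz : z ∈ closedBall (0 : ℂ) (T + 1)
  · exact chart4_mono (hK z hz) (min_le_left _ _) (ball_subset_ball (min_le_left _ _))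
  · have e := ip_self (ν := 1) norm_one
    refine ⟨0, ∅, ∅, 1, 1, 1, le_rfl, by norm_num, norm_one, norm_one, norm_one,
      by linarith [min_le_right γ 1], by linarith [min_le_right γ 1],
      fun _ h => h.elim, fun _ h => h.elim, ?_⟩
    rw [empty_inter, empty_inter, eq_empty_iff_forall_notMem]
    rintro w ⟨a1, a2⟩
    refine hz (mem_closedBall_zero_iff.2 ?_)
    have a3 := mem_ball.1 (ball_subset_ball (min_le_right _ _) a2)
    rw [dist_comm, dist_eq_norm] at a3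
    linarith [hT w a1, norm_le_norm_add_norm_sub' z w]

theorem lip4_of_tame {α : ℝ} (hα : 0 < α) (h : Tame α D) : Lip4 D := by
  refine lip4_of_loc h.1 h.2.1 fun z _ => ?_
  have k0 : 0 < min (α / 4) (1 / 2) := lt_min (by positivity) (by norm_num)
  obtain ⟨r, r0, h⟩ := h.2.2 _ k0
  obtain ⟨S₁, S₂, ν₁, ν₂, a1, a2, a3, a4, a5, a6⟩ := h z
  exact chart4_two k0.le (min_le_right _ _) a1 a2 ((min_le_left _ _).trans (by linarith))
    (norm_pos_iff.1 (hα.trans_le a3)) a4 a5 (P144Z.Ge5.ev_of_ball a6 (mem_ball_self r0))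

theorem lip4_of_C1 (h : IsC1 D) : Lip4 D := lip4_of_tame two_pos (P144Z.tame_of_C1 h)

theorem lip4_of_convex (ho : IsOpen D) (hb : Bornology.IsBounded D) (hc : Convex ℝ D) :
    Lip4 D := by
  obtain ⟨α, hα, h⟩ := P144Z.tame_of_convex ho hb hc
  exact lip4_of_tame hα h

theorem lip4_of_isLip {K : ℝ} (hK : K ≤ 1) (h : IsLip K D) : Lip4 D := by
  refine lip4_of_loc h.1 h.2.1 fun z hz => ?_
  obtain ⟨r, hr, u, hu, g, hg, hD⟩ := h.2.2 z hz
  refine chart4_one (S := {w | g (u * w).re < (u * w).im}) (ν := ⟨u.im, u.re⟩) k_pos.le k_sq.le ?_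
    (fun w hw v hv => ?_) (mem_of_superset (ball_mem_nhds z hr) hD)
  · rw [← hu, Complex.norm_eq_sqrt_sq_add_sq, Complex.norm_eq_sqrt_sq_add_sq, add_comm]
  · have h1 : ‖v‖ ^ 2 = (u * v).re * (u * v).re + (u * v).im * (u * v).im := by
      rw [← Complex.normSq_apply, ← Complex.sq_norm, norm_mul, hu, one_mul]
    have h2 := (abs_le.1 (hg ((u * w).re + (u * v).re) (u * w).re)).2
    have h4 : (u * v).im = v.re * u.im + v.im * u.re := by rw [Complex.mul_im]; ring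
    rw [add_sub_cancel_left] at h2
    change g (u * w).re < (u * w).im at hw
    change √2 / 2 * ‖v‖ ≤ v.re * u.im + v.im * u.re at hv
    change g (u * (w + v)).re < (u * (w + v)).im
    rw [mul_add, Complex.add_re, Complex.add_im]
    rw [← h4] at hv
    have h5 : 0 ≤ (u * v).im := le_trans (by positivity) hv
    have h6 : |(u * v).re| ≤ (u * v).im := by
      refine abs_le.2 (abs_le_of_sq_le_sq' ?_ h5)
      have h7 : (√2 / 2 * ‖v‖) ^ 2 ≤ (u * v).im ^ 2 := pow_le_pow_left₀ (by positivity) hv 2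
      rw [mul_pow, h1, show (√2 / 2) ^ 2 = 1 / 2 by linarith [k_sq]] at h7
      nlinarith
    have h8 := mul_le_mul_of_nonneg_right hK (abs_nonneg (u * v).re)
    linarith

theorem cone_turn4 {S : Set ℂ} {ν ν₁ : ℂ} {c κ : ℝ} (c0 : 0 ≤ c) (c1 : c < κ) (c2 : c ≤ 1)
    (hν : ‖ν‖ = 1) (h1 : ‖ν₁‖ = 1) (h : ∀ u : ℂ, c * ‖u‖ ≤ ip u ν → ip u ν₁ ≤ 0)
    (hS : Cone S ν₁ ((κ - c) / 2)) : Cone S (-ν) κ := by
  intro z hz v hv
  refine hS z hz v ?_
  set δ := (κ - c) / 2 with hδ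
  have d0 : 0 < δ := by linarith
  have n0 := norm_nonneg v
  have e1 : ‖((δ * ‖v‖ : ℝ) : ℂ) * ν₁‖ = δ * ‖v‖ := by
    rw [norm_mul, h1, mul_one, Complex.norm_real, Real.norm_of_nonneg (by positivity)]
  have e2 := norm_sub_le (((δ * ‖v‖ : ℝ) : ℂ) * ν₁) v
  have e3 := (abs_le.1 (ip_le (((δ * ‖v‖ : ℝ) : ℂ) * ν₁) hν)).1
  have e4 : κ * ‖v‖ ≤ -ip v ν := by
    rw [Complex.neg_re, Complex.neg_im] at hv
    unfold ip
    linarith
  have e5 := h (((δ * ‖v‖ : ℝ) : ℂ) * ν₁ - v) (by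
    rw [ip_sub]
    have := mul_le_mul_of_nonneg_left e2 c0
    rw [e1] at this e3
    have f1 : c * (δ * ‖v‖) ≤ δ * ‖v‖ := mul_le_of_le_one_left (by positivity) c2
    have f2 : κ * ‖v‖ = c * ‖v‖ + 2 * (δ * ‖v‖) := by rw [hδ]; ring
    linarith)
  rw [ip_sub, ip_smul, ip_self h1] at e5
  unfold ip at e5
  linarith

theorem lip4_of_PC1 (h : IsPC1 D) (hw : Obtuse D) : Lip4 D := by
  refine lip4_of_loc h.1 h.2.1 fun z hz => ?_
  obtain ⟨F, G, hF, hG, F0, G0, hi, r, hr, e⟩ := h.2.2 z hz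
  have hi' : ∀ s t : ℝ, s • gr F z + t • gr G z = 0 → s = 0 ∧ t = 0 := fun s t e =>
    hi s t (ContinuousLinearMap.ext fun v => by
      have e1 := congrArg Complex.re e
      have e2 := congrArg Complex.im e
      simp only [Complex.add_re, Complex.add_im, Complex.smul_re, Complex.smul_im, smul_eq_mul,
        Complex.zero_re, Complex.zero_im] at e1 e2
      simp only [add_apply, smul_apply, eg, smul_eq_mul, zero_apply]
      linear_combination v.re * e1 + v.im * e2)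
  have f0 : gr F z ≠ 0 := fun e => one_ne_zero (hi' 1 0 (by simp [e])).1
  have g0 : gr G z ≠ 0 := fun e => one_ne_zero (hi' 0 1 (by simp [e])).2
  have n0 : ‖gr F z‖⁻¹ ≠ 0 := inv_ne_zero (norm_ne_zero_iff.2 f0)
  have a1 : nu F z + nu G z ≠ 0 := fun e => n0 (hi' _ _ e).1
  rcases e with e | e | e
  · obtain ⟨S, b1, b2, -⟩ := P144Z.Ge5.loc hF f0 (κ := 1 / 2) (by norm_num)
    exact chart4_one (by norm_num) (by norm_num) (norm_nu f0) b1
      (((P144Z.Ge5.ev_of_ball e (mem_ball_self hr)).and b2).mono fun w hw => hw.1.trans hw.2)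
  · have s0 := norm_pos_iff.2 a1
    have k0 : 0 < min (‖nu F z + nu G z‖ / 4) (1 / 2) := lt_min (by positivity) (by norm_num)
    obtain ⟨S₁, b1, b2, -⟩ := P144Z.Ge5.loc hF f0 k0
    obtain ⟨S₂, c1, c2, -⟩ := P144Z.Ge5.loc hG g0 k0
    exact chart4_two k0.le (min_le_right _ _) (norm_nu f0) (norm_nu g0) (min_le_left _ _) a1 b1 c1
      (((P144Z.Ge5.ev_of_ball e (mem_ball_self hr)).and (b2.and c2)).mono fun w hw =>
        hw.1.trans (and_congr hw.2.1 hw.2.2))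
  · obtain ⟨c, hc, ρ, hρ, ν, hν, hout⟩ := hw z hz
    have c1 : max c 0 < √2 / 2 := max_lt hc k_pos
    have c2 : max c 0 ≤ 1 := by nlinarith [k_sq, k_pos]
    have hout' : ∀ v : ℂ, ‖v‖ < ρ → max c 0 * ‖v‖ ≤ v.re * ν.re + v.im * ν.im → z + v ∉ D :=
      fun v h1 h2 => hout v h1
        ((mul_le_mul_of_nonneg_right (le_max_left _ _) (norm_nonneg _)).trans h2)
    have ev := P144Z.Ge5.ev_of_ball e (mem_ball_self hr)
    have k0 : 0 < (√2 / 2 - max c 0) / 2 := by linarith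
    obtain ⟨S₁, b1, b2, -⟩ := P144Z.Ge5.loc hF f0 k0
    obtain ⟨S₂, d1, d2, -⟩ := P144Z.Ge5.loc hG g0 k0
    have t1 := cone_turn4 (le_max_right _ _) c1 c2 hν (norm_nu f0) (fun u hu => grad_le hF F0 f0
      (ev.mono fun w hw h => hw.2 (Or.inl h)) hρ hout' hu) b1
    have t2 := cone_turn4 (le_max_right _ _) c1 c2 hν (norm_nu g0) (fun u hu => grad_le hG G0 g0
      (ev.mono fun w hw h => hw.2 (Or.inr h)) hρ hout' hu) d1
    exact chart4_one (S := S₁ ∪ S₂) (ν := -ν) k_pos.le k_sq.le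
      (by rw [norm_neg, hν]) (fun y hy v hv => hy.imp (fun h => t1 y h v hv) fun h => t2 y h v hv)
      ((ev.and (b2.and d2)).mono fun w hw => hw.1.trans (or_congr hw.2.1 hw.2.2))

theorem hp_add (a b : ℝ) (z w v : ℂ) : hp a b z (w + v) = hp a b z w + (a * v.re + b * v.im) := by
  simp only [hp, Complex.add_re, Complex.add_im]
  ring

theorem hp_cone {a b : ℝ} (h : (⟨a, b⟩ : ℂ) ≠ 0) (z : ℂ) : ∃ t > (0 : ℝ),
    ‖(⟨t * a, t * b⟩ : ℂ)‖ = 1 ∧ Cone {w | 0 < hp a b z w} ⟨t * a, t * b⟩ 0 := by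
  have h0 := norm_pos_iff.2 h
  refine ⟨‖(⟨a, b⟩ : ℂ)‖⁻¹, inv_pos.2 h0, ?_, fun w hw v hv => ?_⟩
  · have : (⟨‖(⟨a, b⟩ : ℂ)‖⁻¹ * a, ‖(⟨a, b⟩ : ℂ)‖⁻¹ * b⟩ : ℂ) = (‖(⟨a, b⟩ : ℂ)‖⁻¹ : ℝ) * ⟨a, b⟩ := by
      apply Complex.ext
      · rw [Complex.re_ofReal_mul]
      · rw [Complex.im_ofReal_mul]
    rw [this, norm_mul, Complex.norm_real, Real.norm_of_nonneg (inv_pos.2 h0).le,
      inv_mul_cancel₀ h0.ne']
  · have h1 : 0 ≤ ‖(⟨a, b⟩ : ℂ)‖⁻¹ * (a * v.re + b * v.im) := by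
      simp only at hv
      linarith
    have h2 := (mul_nonneg_iff_of_pos_left (inv_pos.2 h0)).1 h1
    have h3 : 0 < hp a b z w := hw
    show 0 < hp a b z (w + v)
    rw [hp_add]
    linarith

theorem hp_turn {a b c r : ℝ} {z ν : ℂ} (hD : ∀ᶠ w in 𝓝 z, 0 < hp a b z w → w ∈ D) (hr : 0 < r)
    (h : ∀ v : ℂ, ‖v‖ < r → c * ‖v‖ ≤ v.re * ν.re + v.im * ν.im → z + v ∉ D) :
    Cone {w | 0 < hp a b z w} (-ν) c := by
  intro w hw v hv
  have h3 : 0 < hp a b z w := hw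
  show 0 < hp a b z (w + v)
  rw [hp_add]
  by_contra hc
  have h4 : a * v.re + b * v.im < 0 := by linarith
  obtain ⟨ε, ε0, hε⟩ := Metric.eventually_nhds_iff_ball.1 hD
  obtain ⟨t, t0, t1⟩ : ∃ t : ℝ, 0 < t ∧ t * ‖v‖ < min r ε := by
    have m0 := lt_min hr ε0
    refine ⟨min r ε / (‖v‖ + 1), by positivity, ?_⟩
    rw [div_mul_eq_mul_div, div_lt_iff₀ (by positivity)]
    nlinarith
  have e : ‖-((t : ℂ) * v)‖ = t * ‖v‖ := by
    rw [norm_neg, norm_mul, Complex.norm_real, Real.norm_of_nonneg t0.le]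
  rw [Complex.neg_re, Complex.neg_im] at hv
  refine h (-(t * v)) (by rw [e]; exact t1.trans_le (min_le_left _ _)) ?_ (hε _ ?_ ?_)
  · rw [e, Complex.neg_re, Complex.neg_im, Complex.re_ofReal_mul, Complex.im_ofReal_mul]
    nlinarith
  · rw [mem_ball_iff_norm, add_sub_cancel_left, e]
    exact t1.trans_le (min_le_right _ _)
  · rw [hp_add, Complex.neg_re, Complex.neg_im, Complex.re_ofReal_mul, Complex.im_ofReal_mul]
    simp only [hp, sub_self, mul_zero]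
    nlinarith

theorem lip4_of_polygon (h : IsPolygon D) (hw : Right D) : Lip4 D := by
  refine lip4_of_loc h.1 h.2.1 fun z hz => ?_
  obtain ⟨a, b, c, d, h0, e⟩ := polygon_aff h z hz
  have n1 : (⟨a, b⟩ : ℂ) ≠ 0 := fun e => h0 (by
    rw [show a = 0 from congrArg Complex.re e, show b = 0 from congrArg Complex.im e]; ring)
  have n2 : (⟨c, d⟩ : ℂ) ≠ 0 := fun e => h0 (by
    rw [show c = 0 from congrArg Complex.re e, show d = 0 from congrArg Complex.im e]; ring)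
  obtain ⟨s, s0, s1, s2⟩ := hp_cone n1 z
  obtain ⟨t, t0, t1, t2⟩ := hp_cone n2 z
  rcases e with e | e | e
  · exact chart4_one le_rfl (by norm_num) s1 s2 e
  · refine chart4_two le_rfl (by norm_num) s1 t1 (by positivity) (fun o => h0 ?_) s2 t2 e
    have o1 : s * a + t * c = 0 := congrArg Complex.re o
    have o2 : s * b + t * d = 0 := congrArg Complex.im o
    exact (mul_eq_zero.1 (by linear_combination d * o1 - c * o2)).resolve_left s0.ne'
  · obtain ⟨ρ, hρ, ν, hν, hout⟩ := hw z hz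
    have u1 := hp_turn (e.mono fun w hw h => hw.2 (Or.inl h)) hρ hout
    have u2 := hp_turn (e.mono fun w hw h => hw.2 (Or.inr h)) hρ hout
    exact chart4_one (S := {w | 0 < hp a b z w} ∪ {w | 0 < hp c d z w}) (ν := -ν) k_pos.le k_sq.le
      (by rw [norm_neg, hν]) (fun y hy v hv => hy.imp (fun h => u1 y h v hv) fun h => u2 y h v hv) e

end Vale.Agent.P144S.L
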