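import Vale.Agent.P144S.Defs
import Vale.Agent.P144Q.L.Lat

/-!
The outside of a domain of the class is connected, on the lattice and in the continuum.
-/

namespace Vale.Agent.P144S.L

open Filter Topology Metric Vale.Agent.P144 Vale.Agent.P144Q Vale.Agent.P144Q.L
open Vale.Agent.P144.H170 (Pt pt nf ev_nf pt_fl_norm)

section

variable {D : Set ℂ} {a : ℝ}

theorem chart_of_chart4 {γ r : ℝ} {z : ℂ} (h : Chart4 D γ r z) : Chart D γ r z := by
  obtain ⟨κ, S₁, S₂, ν₁, ν₂, μ, k0, k1, h⟩ := h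
  exact ⟨κ, S₁, S₂, ν₁, ν₂, μ, k0, by nlinarith, h⟩

theorem lip3_of_lip4 (h : Lip4 D) : Lip3 D := by
  obtain ⟨h1, h2, γ, r, g0, r0, h⟩ := h
  exact ⟨h1, h2, γ, r, g0, r0, fun z => chart_of_chart4 (h z)⟩

/-- From local to global connectedness outside a simply connected domain. -/
theorem glob (hb : Bornology.IsBounded D) (c : Cm D) {ρ : ℝ} (ρ0 : 0 < ρ) {X : Type} (π : X → ℂ)
    (ok : X → Prop) (C : X → X → Prop) (symm : ∀ {v w}, C v w → C w v)
    (trans : ∀ {u v w}, C u v → C v w → C u w) (out : ∀ v, ok v → π v ∉ D)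
    (loc : ∀ z v w, ok v → ok w → ‖π v - z‖ ≤ 2 * ρ → ‖π w - z‖ ≤ 2 * ρ → C v w)
    (ex₀ : ∀ y ∉ D, ∃ u, ok u ∧ ‖π u - y‖ ≤ ρ / 2) (v w : X) (hv : ok v) (hw : ok w) : C v w := by
  obtain ⟨s, s0, s1, hs⟩ := Cm.rad c hb (η := ρ / 2) (by positivity)
  obtain ⟨K, hK⟩ : ∃ K, K = c.ψ '' closedBall 0 s := ⟨_, rfl⟩
  have hKc : IsCompact K := hK ▸ (isCompact_closedBall 0 s).image_of_continuousOn
    (c.ψd.continuousOn.mono (closedBall_subset_ball s1))
  have hKD : K ⊆ D := by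
    rw [hK]; rintro _ ⟨x, hx, rfl⟩; exact c.ψm (closedBall_subset_ball s1 hx)
  have hA : IsPreconnected (D \ K) := hK ▸ Cm.ann c s0
  rw [← hK] at hs
  have ex : ∀ x ∉ K, ∃ u, ok u ∧ ‖π u - x‖ ≤ ρ := by
    intro x hx
    have : ∃ y ∉ D, ‖y - x‖ ≤ ρ / 2 := by
      by_cases hxD : x ∈ D
      · obtain ⟨y, hy, hy'⟩ := (infDist_lt_iff ⟨_, out v hv⟩).1 (hs x ⟨hxD, hx⟩)
        exact ⟨y, hy, by rw [← dist_eq_norm, dist_comm]; exact hy'.le⟩
      · exact ⟨x, hxD, by rw [sub_self, norm_zero]; positivity⟩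
    obtain ⟨y, hy, hyx⟩ := this
    obtain ⟨u, u1, u2⟩ := ex₀ y hy
    exact ⟨u, u1, by linarith [norm_sub_le_norm_sub_add_norm_sub (π u) y x]⟩
  have : Nonempty X := ⟨v⟩
  choose! σ σ1 σ2 using ex
  have near : ∀ x ∉ K, ∀ y ∉ K, ‖y - x‖ ≤ ρ → C (σ x) (σ y) := fun x hx y hy hxy =>
    loc x _ _ (σ1 x hx) (σ1 y hy) (by linarith [σ2 x hx])
      (by linarith [σ2 y hy, norm_sub_le_norm_sub_add_norm_sub (π (σ y)) y x])
  have inA : ∀ x ∈ D \ K, ∀ y ∈ D \ K, C (σ x) (σ y) := fun x hx y hy => by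
    refine hA.induction₂ (fun x y => C (σ x) (σ y)) (fun x hx => ?_)
      (fun _ _ _ _ _ _ h1 h2 => trans h1 h2) (fun _ _ _ _ h1 => symm h1) hx hy
    filter_upwards [self_mem_nhdsWithin, mem_nhdsWithin_of_mem_nhds (closedBall_mem_nhds x ρ0)]
      with y hy hb
    exact near x hx.2 y hy.2 (by rwa [mem_closedBall, dist_eq_norm] at hb)
  have hne : (D \ K).Nonempty := by
    have b : (((1 + s) / 2 : ℝ) : ℂ) ∈ ball (0 : ℂ) 1 := by
      rw [mem_ball_zero_iff, Complex.norm_real, Real.norm_of_nonneg (by linarith)]; linarith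
    refine ⟨c.ψ ((1 + s) / 2 : ℝ), c.ψm b, ?_⟩
    rw [hK]
    rintro ⟨u, hu, hu'⟩
    have := c.ri u (closedBall_subset_ball s1 hu)
    rw [hu', c.ri _ b] at this
    rw [← this, mem_closedBall_zero_iff, Complex.norm_real, Real.norm_of_nonneg (by linarith)] at hu
    linarith
  obtain ⟨x₀, hx₀⟩ := hne
  have all : ∀ x y : ℂ, ((x ∉ K → C (σ x) (σ x₀)) → (y ∉ K → C (σ y) (σ x₀))) := by
    intro x y
    refine isPreconnected_univ.induction₂'
      (fun x y => (x ∉ K → C (σ x) (σ x₀)) → (y ∉ K → C (σ y) (σ x₀))) (fun x _ => ?_)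
      (fun _ _ _ _ _ _ h1 h2 h3 => h2 (h1 h3)) (Set.mem_univ x) (Set.mem_univ y)
    rw [nhdsWithin_univ]
    by_cases hx : x ∈ K
    · filter_upwards [c.op.mem_nhds (hKD hx)] with y hy
      exact ⟨fun _ hyK => inA y ⟨hy, hyK⟩ x₀ hx₀, fun _ h => absurd hx h⟩
    · filter_upwards [hKc.isClosed.isOpen_compl.mem_nhds hx, closedBall_mem_nhds x ρ0] with y hy hb
      have := near x hx y hy (by rwa [mem_closedBall, dist_eq_norm] at hb)
      exact ⟨fun h _ => trans (symm this) (h hx), fun h _ => trans this (h hy)⟩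
  have fin : ∀ v, ok v → C v (σ x₀) := fun v hv => by
    have hvK : π v ∉ K := fun h => out v hv (hKD h)
    exact trans (loc (π v) v _ hv (σ1 _ hvK) (by rw [sub_self, norm_zero]; positivity)
      (by linarith [σ2 _ hvK])) (all x₀ _ (fun _ => inA x₀ hx₀ x₀ hx₀) hvK)
  exact trans (fin v hv) (symm (fin w hw))

/-- Points close to a deep point of a cone are in the cone. -/
theorem deep {p y u ν : ℂ} {κ t : ℝ} (n1 : ‖ν‖ = 1) (k0 : 0 ≤ κ) (k1 : κ ≤ 1)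
    (h : 2 * t + κ * ‖p - y‖ ≤ ip (p - y) ν) (hu : ‖u - y‖ ≤ t) : κ * ‖p - u‖ ≤ ip (p - u) ν := by
  have e : p - u = (p - y) - (u - y) := by ring
  have f1 := norm_sub_le (p - y) (u - y)
  have f2 := (abs_le.1 (ip_le (u - y) n1)).2
  rw [e, ip_sub]
  have f3 := mul_le_mul_of_nonneg_left f1 k0
  nlinarith [norm_nonneg (u - y)]

/-- The common deep point. -/
theorem deep_star {p z ν μ : ℂ} {κ γ r t : ℝ} (n1 : ‖ν‖ = 1) (m1 : ‖μ‖ = 1) (k0 : 0 ≤ κ)
    (k1 : κ ≤ 1) (hr : 0 < r) (hμ : κ + γ ≤ ip μ ν) (h : t + 2 * ‖p - z‖ ≤ γ * r / 2) :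
    t + κ * ‖p - (z - ((r / 2 : ℝ) : ℂ) * μ)‖ ≤ ip (p - (z - ((r / 2 : ℝ) : ℂ) * μ)) ν := by
  have e : p - (z - ((r / 2 : ℝ) : ℂ) * μ) = (p - z) + ((r / 2 : ℝ) : ℂ) * μ := by ring
  have f1 := norm_add_le (p - z) (((r / 2 : ℝ) : ℂ) * μ)
  rw [norm_mul, m1, Complex.norm_real, Real.norm_of_nonneg (by positivity)] at f1
  have f2 := (abs_le.1 (ip_le (p - z) n1)).1
  rw [e, ip_add, ip_smul]
  have f3 := mul_le_mul_of_nonneg_left f1 k0
  have f4 := mul_le_mul_of_nonneg_left hμ (by positivity : (0 : ℝ) ≤ r / 2)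
  nlinarith [norm_nonneg (p - z)]

theorem star_norm (z : ℂ) {μ : ℂ} {r : ℝ} (m1 : ‖μ‖ = 1) (hr : 0 < r) :
    ‖z - ((r / 2 : ℝ) : ℂ) * μ - z‖ = r / 2 := by
  rw [sub_sub_cancel_left, norm_neg, norm_mul, m1, Complex.norm_real,
    Real.norm_of_nonneg (by positivity), mul_one]

/-! ### The continuum -/

theorem chart_join {γ r η : ℝ} {z : ℂ} (h : Chart D γ r z) (hne : D.Nonempty) (hγ : 0 < γ)
    (hr : 0 < r) (hη : 0 < η) (h1 : η ≤ γ * r / 16) : ∃ w : ℂ, ∀ y : ℂ, η ≤ infDist y D →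
      ‖y - z‖ ≤ γ * r / 8 → JoinedIn {u | γ * η / 4 ≤ infDist u D} y w := by
  have hγ1 := h.le_one
  obtain ⟨κ, μ, k0, k1, m1, h⟩ := h.out
  refine ⟨z - ((r / 2 : ℝ) : ℂ) * μ, fun y hy hyz => ?_⟩
  have a1 : γ * r ≤ r := by nlinarith
  have a2 : γ * η ≤ η := by nlinarith
  have a3 : 0 < γ * η := by positivity
  have e1 : ‖((η / 2 : ℝ) : ℂ) * μ‖ = η / 2 := by
    rw [norm_mul, m1, Complex.norm_real, Real.norm_of_nonneg (by positivity), mul_one]
  obtain ⟨p, hp⟩ : ∃ p, p = y + ((η / 2 : ℝ) : ℂ) * μ := ⟨_, rfl⟩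
  have e2 : p - y = ((η / 2 : ℝ) : ℂ) * μ := by rw [hp]; ring
  have e3 : ‖p - z‖ ≤ η / 2 + γ * r / 8 := by
    have := norm_sub_le_norm_sub_add_norm_sub p y z
    rw [e2, e1] at this
    linarith
  have e4 : p ∉ D := fun hpD => by
    have := infDist_le_dist_of_mem (x := y) hpD
    rw [dist_comm, dist_eq_norm, e2, e1] at this
    linarith
  obtain ⟨ν, n1, hμν, h⟩ := h p (by rw [mem_ball, dist_eq_norm]; linarith) e4
  refine JoinedIn.mono (U := {u : ℂ | γ * η / 2 + κ * ‖p - u‖ ≤ ip (p - u) ν} ∩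
    ball z (3 * r / 4)) ?_ ?_
  · refine (((convex_cone _ _ k0 _).inter (convex_ball _ _)).isPathConnected ⟨y, ?_⟩).joinedIn
      _ ?_ _ ⟨?_, ?_⟩
    iterate 2
      refine ⟨?_, by rw [mem_ball, dist_eq_norm]; linarith⟩
      simp only [Set.mem_ofPred_eq]
      rw [e2, e1, ip_smul]
      nlinarith
    · exact deep_star n1 m1 k0 (by linarith) hr hμν (by linarith)
    · rw [mem_ball, dist_eq_norm, star_norm z m1 hr]
      linarith
  · rintro u ⟨u1, u2⟩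
    simp only [Set.mem_ofPred_eq] at u1 ⊢
    rw [mem_ball, dist_eq_norm] at u2
    refine (le_infDist hne).2 fun x hx => not_lt.1 fun hc => h x ?_ ?_ hx
    · rw [dist_comm, dist_eq_norm] at hc
      rw [mem_ball, dist_eq_norm]
      linarith [norm_sub_le_norm_sub_add_norm_sub x u z]
    · rw [dist_comm, dist_eq_norm] at hc
      exact deep (t := γ * η / 4) n1 k0 (by linarith) (by linarith) hc.le

theorem out : SOut := by
  rintro D ⟨hop, hb, γ, r, hγ, hr, h⟩ ⟨c⟩ ε hε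
  have hγ1 := (h 0).le_one
  have hne : D.Nonempty := ⟨_, c.ψm (mem_ball_self one_pos)⟩
  obtain ⟨ρ, hρ⟩ : ∃ ρ, ρ = γ * r / 16 := ⟨_, rfl⟩
  have ρ0 : 0 < ρ := by rw [hρ]; positivity
  have ρ1 : ρ ≤ r / 16 := by rw [hρ]; nlinarith
  obtain ⟨η, η0, η1, η2⟩ : ∃ η, 0 < η ∧ η ≤ ε ∧ η ≤ ρ / 40 :=
    ⟨min ε (ρ / 40), by positivity, min_le_left _ _, min_le_right _ _⟩
  refine ⟨γ * η / 4, by positivity, fun z w hz hw => ?_⟩
  refine glob hb c ρ0 id (fun y => η ≤ infDist y D) (JoinedIn {u | γ * η / 4 ≤ infDist u D})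
    JoinedIn.symm JoinedIn.trans (fun v hv hvD => ?_) (fun x v w hv hw h1 h2 => ?_) (fun y hy => ?_)
    z w (η1.trans hz) (η1.trans hw)
  · have : infDist v D = 0 := infDist_zero_of_mem hvD
    linarith
  · obtain ⟨u, hu⟩ := chart_join (h x) hne hγ hr η0 (by linarith)
    exact (hu v hv (by rw [id] at h1; linarith)).trans (hu w hw (by rw [id] at h2; linarith)).symm
  · obtain ⟨q, q1, q2⟩ := (h y).fat hy (t := ρ / 2) (by positivity) (by linarith)
    refine ⟨q, (le_infDist hne).2 fun x hx => not_lt.1 fun hc => q2 x ?_ hx, q1⟩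
    rw [dist_comm, dist_eq_norm] at hc
    linarith

/-! ### The lattice -/

/-- Connected through outer sites, by nearest-neighbour moves. -/
def C4 (D : Set ℂ) (a : ℝ) : Site → Site → Prop :=
  Relation.ReflTransGen fun x y : Site =>
    pt a x ∉ D ∧ pt a y ∉ D ∧ |x.1 - y.1| + |x.2 - y.2| ≤ 1

theorem C4.symm {v w : Site} (h : C4 D a v w) : C4 D a w v := by
  induction h with
  | refl => exact .refl
  | tail _ h2 ih =>
    exact Relation.ReflTransGen.head ⟨h2.2.1, h2.1, by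
      rw [abs_sub_comm, abs_sub_comm (Prod.snd _)]; exact h2.2.2⟩ ih

theorem C4.trans {u v w : Site} (h : C4 D a u v) (h' : C4 D a v w) : C4 D a u w :=
  Relation.ReflTransGen.trans h h'

theorem c4_of_conn (ha : 0 < a) {W : Set ℂ} (hW : IsPreconnected W)
    (h : ∀ z ∈ W, ∀ x : Site, ‖pt a x - z‖ ≤ 3 * a → pt a x ∉ D) {z z' : ℂ} (hz : z ∈ W)
    (hz' : z' ∈ W) : C4 D a (fl a z) (fl a z') := by
  refine hW.induction₂ (fun x y => C4 D a (fl a x) (fl a y)) (fun x hx => ?_)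
    (fun _ _ _ _ _ _ h1 h2 => h1.trans h2) (fun _ _ _ _ h1 => h1.symm) hz hz'
  filter_upwards [self_mem_nhdsWithin, mem_nhdsWithin_of_mem_nhds (ball_mem_nhds x ha)] with y hy hb
  rw [mem_ball, dist_comm, dist_eq_norm] at hb
  obtain ⟨h1, h2⟩ := fl_near ha hb
  have x1 := pt_fl_norm ha x
  have y1 := pt_fl_norm ha y
  have m : pt a ((fl a y).1, (fl a x).2) ∉ D := by
    refine h x hx _ ?_
    have e : pt a ((fl a y).1, (fl a x).2) - pt a (fl a x) =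
        ((a * (((fl a y).1 - (fl a x).1 : ℤ) : ℝ) : ℝ) : ℂ) := by
      apply Complex.ext <;> simp [pt, mul_sub]
    have f : |(((fl a y).1 - (fl a x).1 : ℤ) : ℝ)| ≤ 1 := by
      rw [abs_sub_comm] at h1; exact_mod_cast h1
    have := norm_sub_le_norm_sub_add_norm_sub (pt a ((fl a y).1, (fl a x).2)) (pt a (fl a x)) x
    rw [e, Complex.norm_real, Real.norm_eq_abs, abs_mul, abs_of_pos ha] at this
    nlinarith
  exact Relation.ReflTransGen.head ⟨h x hx _ (by linarith), m, by simpa using h1⟩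
    (Relation.ReflTransGen.single ⟨m, h y hy _ (by linarith), by simpa using h2⟩)

/-- Two steps in directions close to `ν`. -/
theorem rook {ν : ℂ} (h : ‖ν‖ = 1) {κ : ℝ} (k0 : 0 ≤ κ) (k1 : 2 * κ ^ 2 ≤ 1) : ∃ e e' : Site,
    |e.1| + |e.2| ≤ 1 ∧ |e'.1| + |e'.2| ≤ 1 ∧ ‖pt 1 e‖ ≤ 1 ∧ ‖pt 1 (e + e')‖ ≤ 2 ∧
    κ ≤ ip (pt 1 e) ν ∧ κ * ‖pt 1 (e + e')‖ + 1 / 25 ≤ ip (pt 1 (e + e')) ν := by
  have h2 := Complex.sq_norm ν
  rw [Complex.normSq_apply, h] at h2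
  have k2 : κ ≤ 71 / 100 := by nlinarith
  have nn : ∀ (e : Site) (c : ℝ), 0 ≤ c → (e.1 : ℝ) ^ 2 + (e.2 : ℝ) ^ 2 ≤ c ^ 2 → ‖pt 1 e‖ ≤ c := by
    intro e c hc he
    refine abs_le_of_sq_le_sq' ?_ hc |>.2
    rw [Complex.sq_norm, Complex.normSq_apply]
    simp only [pt, one_mul]
    nlinarith
  have fin : ∀ (s t : ℤ) (x y : ℝ), (s = 1 ∨ s = -1) → (t = 1 ∨ t = -1) → 0 ≤ y → y ≤ x →
      x * x + y * y = 1 → ∀ f : ℤ → ℤ → Site, (∀ i j, ip (pt 1 (f (i * s) (j * t))) ν = i * x + j * y) →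
      (∀ i j, |(f i j).1| + |(f i j).2| = |i| + |j|) →
      (∀ i j, ((f i j).1 : ℝ) ^ 2 + ((f i j).2 : ℝ) ^ 2 = (i : ℝ) ^ 2 + (j : ℝ) ^ 2) →
      (∀ i j i' j', f i j + f i' j' = f (i + i') (j + j')) → ∃ e e' : Site,
      |e.1| + |e.2| ≤ 1 ∧ |e'.1| + |e'.2| ≤ 1 ∧ ‖pt 1 e‖ ≤ 1 ∧ ‖pt 1 (e + e')‖ ≤ 2 ∧
      κ ≤ ip (pt 1 e) ν ∧ κ * ‖pt 1 (e + e')‖ + 1 / 25 ≤ ip (pt 1 (e + e')) ν := by
    intro s t x y hs ht y0 yx e f f1 f2 f3 f4
    have s1 : |s| = 1 := by rcases hs with rfl | rfl <;> simp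
    have t1 : |t| = 1 := by rcases ht with rfl | rfl <;> simp
    have s2 : (s : ℝ) ^ 2 = 1 := by rcases hs with rfl | rfl <;> simp
    have t2 : (t : ℝ) ^ 2 = 1 := by rcases ht with rfl | rfl <;> simp
    have kx : κ ≤ x := by
      refine abs_le_of_sq_le_sq' ?_ (y0.trans yx) |>.2
      nlinarith
    have g1 := f1 1 0
    simp only [one_mul, zero_mul, Int.cast_one, Int.cast_zero, add_zero] at g1
    by_cases hx : 3 / 4 ≤ x
    · have g2 := f1 2 0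
      have g3 := nn (f (2 * s) 0) 2 (by norm_num) (by rw [f3]; push_cast; nlinarith)
      simp only [zero_mul, Int.cast_zero, add_zero, Int.cast_ofNat] at g2
      refine ⟨f s 0, f s 0, by simp [f2, s1], by simp [f2, s1],
        nn _ 1 (by norm_num) (by rw [f3]; simp [s2]), ?_, by rw [g1]; exact kx, ?_⟩
      · rw [f4, ← two_mul, add_zero]; exact g3
      · rw [f4, ← two_mul, add_zero, g2]
        nlinarith
    · have g2 := f1 1 1
      have g3 := nn (f s t) (3 / 2) (by norm_num) (by rw [f3, s2, t2]; norm_num)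
      simp only [one_mul, Int.cast_one] at g2
      refine ⟨f s 0, f 0 t, by simp [f2, s1], by simp [f2, t1],
        nn _ 1 (by norm_num) (by rw [f3]; simp [s2]), ?_, by rw [g1]; exact kx, ?_⟩
      · rw [f4, add_zero, zero_add]; linarith
      · rw [f4, add_zero, zero_add, g2]
        have y1 : 3 / 5 ≤ y := by nlinarith
        nlinarith
  obtain ⟨s, hs, s1⟩ : ∃ s : ℤ, (s = 1 ∨ s = -1) ∧ s * ν.re = |ν.re| := by
    rcases le_total 0 ν.re with b | b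
    · exact ⟨1, Or.inl rfl, by simp [abs_of_nonneg b]⟩
    · exact ⟨-1, Or.inr rfl, by simp [abs_of_nonpos b]⟩
  obtain ⟨t, ht, t1⟩ : ∃ t : ℤ, (t = 1 ∨ t = -1) ∧ t * ν.im = |ν.im| := by
    rcases le_total 0 ν.im with b | b
    · exact ⟨1, Or.inl rfl, by simp [abs_of_nonneg b]⟩
    · exact ⟨-1, Or.inr rfl, by simp [abs_of_nonpos b]⟩
  rcases le_total |ν.im| |ν.re| with b | b
  · refine fin s t |ν.re| |ν.im| hs ht (abs_nonneg _) b (by rw [abs_mul_abs_self, abs_mul_abs_self]; linarith)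
      (fun i j => (i, j)) (fun i j => ?_) (fun _ _ => rfl) (fun _ _ => rfl) fun _ _ _ _ => rfl
    simp only [ip, pt, one_mul, Int.cast_mul, mul_assoc, s1, t1]
  · refine fin t s |ν.im| |ν.re| ht hs (abs_nonneg _) b (by rw [abs_mul_abs_self, abs_mul_abs_self]; linarith)
      (fun i j => (j, i)) (fun i j => ?_) (fun _ _ => add_comm _ _) (fun _ _ => add_comm _ _)
      fun _ _ _ _ => rfl
    simp only [ip, pt, one_mul, Int.cast_mul, mul_assoc, s1, t1, add_comm]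

theorem chart4_out {γ r : ℝ} {z : ℂ} (h : Chart4 D γ r z) : ∃ κ : ℝ, ∃ μ : ℂ, 0 ≤ κ ∧
    2 * κ ^ 2 ≤ 1 ∧ ‖μ‖ = 1 ∧ ∀ y ∈ ball z r, y ∉ D → ∃ ν : ℂ, ‖ν‖ = 1 ∧ κ + γ ≤ ip μ ν ∧
      ∀ u ∈ ball z r, κ * ‖y - u‖ ≤ ip (y - u) ν → u ∉ D := by
  obtain ⟨κ, S₁, S₂, ν₁, ν₂, μ, k0, k1, a1, a2, a3, a4, a5, a6, a7, a8⟩ := h
  refine ⟨κ, μ, k0, k1, a3, fun y hy hyD => ?_⟩
  have key : ∀ u ∈ ball z r, u ∈ D → u ∈ S₁ ∧ u ∈ S₂ := fun u hu huD => by
    have : u ∈ S₁ ∩ S₂ ∩ ball z r := a8 ▸ ⟨huD, hu⟩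
    exact this.1
  have h12 : y ∉ S₁ ∨ y ∉ S₂ := by
    by_contra hc
    push Not at hc
    have : y ∈ D ∩ ball z r := a8 ▸ ⟨hc, hy⟩
    exact hyD this.1
  rcases h12 with h | h
  · refine ⟨ν₁, a1, a4, fun u hu hc huD => h ?_⟩
    have := a6 u (key u hu huD).1 (y - u) hc
    rwa [add_sub_cancel] at this
  · refine ⟨ν₂, a2, a5, fun u hu hc huD => h ?_⟩
    have := a7 u (key u hu huD).2 (y - u) hc
    rwa [add_sub_cancel] at this

/-- The outer sites close to the centre of a chart are connected. -/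
theorem chart4_c4 {γ r : ℝ} {z : ℂ} (h : Chart4 D γ r z) (hr : 0 < r) (ha : 0 < a)
    (h1 : a ≤ γ * r / 32) (h2 : a ≤ r / 1000) : ∃ w : Site, ∀ v : Site, pt a v ∉ D →
      ‖pt a v - z‖ ≤ γ * r / 8 → C4 D a v w := by
  have hγ1 := (chart_of_chart4 h).le_one
  obtain ⟨κ, μ, k0, k1, m1, h⟩ := chart4_out h
  have k2 : κ ≤ 1 := by nlinarith
  refine ⟨fl a (z - ((r / 2 : ℝ) : ℂ) * μ), fun v hv hvz => ?_⟩
  have hvz' : ‖pt a v - z‖ ≤ r / 8 := by nlinarith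
  obtain ⟨ν, n1, hμν, h⟩ := h (pt a v) (by rw [mem_ball, dist_eq_norm]; linarith) hv
  obtain ⟨e, e', e1, e2, e3, e4, e5, e6⟩ := rook n1 k0 k1
  have ej : ∀ j i : ℕ, pt a v - pt a (v - j • (e + e') - i • e) =
      ((j * a : ℝ) : ℂ) * pt 1 (e + e') + ((i * a : ℝ) : ℂ) * pt 1 e := by
    intro j i
    apply Complex.ext <;> simp [pt] <;> ring
  have nj : ∀ (j : ℕ) (x : ℂ), ‖((j * a : ℝ) : ℂ) * x‖ = j * a * ‖x‖ := by
    intro j x
    rw [norm_mul, Complex.norm_real, Real.norm_of_nonneg (by positivity)]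
  have nji : ∀ j i : ℕ, ‖pt a v - pt a (v - j • (e + e') - i • e)‖ ≤
      j * a * ‖pt 1 (e + e')‖ + i * a * ‖pt 1 e‖ := by
    intro j i
    rw [ej, ← nj, ← nj]
    exact norm_add_le _ _
  have bj : ∀ j i : ℕ, j ≤ 150 → i ≤ 1 →
      ‖pt a (v - j • (e + e') - i • e) - z‖ ≤ r / 8 + 301 * a := by
    intro j i hj hi
    have hj' : (j : ℝ) ≤ 150 := by exact_mod_cast hj
    have hi' : (i : ℝ) ≤ 1 := by exact_mod_cast hi
    have f0 := norm_sub_le_norm_sub_add_norm_sub (pt a (v - j • (e + e') - i • e)) (pt a v) z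
    rw [norm_sub_rev _ (pt a v)] at f0
    have f1 : j * a * ‖pt 1 (e + e')‖ ≤ 150 * a * 2 := by gcongr
    have f2 : i * a * ‖pt 1 e‖ ≤ 1 * a * 1 := by gcongr
    linarith [nji j i]
  have dj : ∀ j i : ℕ, j * a / 25 + κ * ‖pt a v - pt a (v - j • (e + e') - i • e)‖ ≤
      ip (pt a v - pt a (v - j • (e + e') - i • e)) ν := by
    intro j i
    have f0 := mul_le_mul_of_nonneg_left (nji j i) k0
    have f1 := mul_le_mul_of_nonneg_left e6 (by positivity : (0 : ℝ) ≤ j * a)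
    have f2 := mul_le_mul_of_nonneg_left ((mul_le_of_le_one_right k0 e3).trans e5)
      (by positivity : (0 : ℝ) ≤ i * a)
    conv_rhs => rw [ej, ip_add, ip_smul, ip_smul]
    linarith
  have oj : ∀ j i : ℕ, j ≤ 150 → i ≤ 1 → pt a (v - j • (e + e') - i • e) ∉ D := by
    intro j i hj hi
    refine h _ (by rw [mem_ball, dist_eq_norm]; linarith [bj j i hj hi]) ?_
    have : (0 : ℝ) ≤ j * a / 25 := by positivity
    linarith [dj j i]
  have cj : ∀ j : ℕ, j ≤ 150 → C4 D a v (v - j • (e + e') - 0 • e) := by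
    intro j
    induction j with
    | zero =>
      intro _
      rw [zero_smul, zero_smul, sub_zero, sub_zero]
      exact Relation.ReflTransGen.refl
    | succ j ih =>
      intro hj
      refine Relation.ReflTransGen.tail (Relation.ReflTransGen.tail (ih (by lia))
        ⟨oj j 0 (by lia) (by lia), oj j 1 (by lia) le_rfl, ?_⟩)
        ⟨oj j 1 (by lia) le_rfl, oj (j + 1) 0 hj (by lia), ?_⟩
      · convert e1 using 3 <;> simp
      · convert e2 using 3 <;> simp <;> ring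
  refine (cj 150 le_rfl).trans ?_
  rw [← fl_pt ha (v - 150 • (e + e') - 0 • e)]
  refine c4_of_conn ha (W := {y : ℂ | 6 * a + κ * ‖pt a v - y‖ ≤ ip (pt a v - y) ν} ∩
    ball z (r - 3 * a)) ((convex_cone _ _ k0 _).inter (convex_ball _ _)).isPreconnected ?_
    ⟨?_, ?_⟩ ⟨?_, ?_⟩
  · rintro y ⟨y1, y2⟩ x hx
    simp only [Set.mem_ofPred_eq] at y1
    rw [mem_ball, dist_eq_norm] at y2
    refine h _ ?_ (deep (t := 3 * a) n1 k0 k2 (by linarith) hx)
    rw [mem_ball, dist_eq_norm]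
    linarith [norm_sub_le_norm_sub_add_norm_sub (pt a x) y z]
  · have := dj 150 0
    simp only [Set.mem_ofPred_eq]
    push_cast at this
    linarith
  · rw [mem_ball, dist_eq_norm]
    exact (bj 150 0 le_rfl (by lia)).trans_lt (by linarith)
  · exact deep_star n1 m1 k0 k2 hr hμν (by linarith)
  · rw [mem_ball, dist_eq_norm, star_norm z m1 hr]
    linarith

theorem latP : SLatP := by
  rintro D hD ⟨c⟩
  refine ⟨lat3 (lip3_of_lip4 hD) c, ?_⟩
  obtain ⟨hop, hb, γ, r, hγ, hr, h⟩ := hD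
  have hγ1 := (chart_of_chart4 (h 0)).le_one
  obtain ⟨ρ, hρ⟩ : ∃ ρ, ρ = γ * r / 16 := ⟨_, rfl⟩
  have ρ0 : 0 < ρ := by rw [hρ]; positivity
  have ρ1 : ρ ≤ r / 16 := by rw [hρ]; nlinarith
  filter_upwards [Ioc_mem_nhdsGT (show (0 : ℝ) < min (ρ / 160) (r / 1000) by positivity)]
    with a ha v hv w hw
  have a1 : a ≤ ρ / 160 := ha.2.trans (min_le_left _ _)
  have a2 : a ≤ r / 1000 := ha.2.trans (min_le_right _ _)
  rw [mem_disc hb ha.1] at hv hw
  have key : C4 D a v w := by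
    refine glob hb c ρ0 (pt a) (fun v => pt a v ∉ D) (C4 D a) C4.symm C4.trans (fun _ h => h)
      (fun z v w hv hw h1 h2 => ?_) (fun y hy => ?_) v w hv hw
    · obtain ⟨u, hu⟩ := chart4_c4 (h z) hr ha.1 (by linarith) a2
      exact (hu v hv (by linarith)).trans (hu w hw (by linarith)).symm
    · obtain ⟨q, q1, q2⟩ := (chart_of_chart4 (h y)).fat hy (t := ρ / 4) (by positivity) (by linarith)
      have q3 := pt_fl_norm ha.1 q
      exact ⟨fl a q, q2 _ (by linarith),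
        by linarith [norm_sub_le_norm_sub_add_norm_sub (pt a (fl a q)) q y]⟩
  clear hw
  induction key with
  | refl => exact .refl
  | @tail x y _ h2 ih =>
    by_cases e : x = y
    · exact e ▸ ih
    · refine ih.tail ⟨fun hy => h2.2.1 ((mem_disc hb ha.1 _).1 hy), le_antisymm h2.2.2 ?_⟩
      by_contra hc
      have b1 := abs_nonneg (x.1 - y.1)
      have b2 := abs_nonneg (x.2 - y.2)
      exact e (Prod.ext (sub_eq_zero.1 (abs_eq_zero.1 (by lia))) (sub_eq_zero.1 (abs_eq_zero.1 (by lia))))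

end

end Vale.Agent.P144S.L
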